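import Vale.Agent.N180.Bridge

/-!
P180: Donovan's conjecture, in both forms, for named classes of finite groups.
-/

namespace Vale.Agent.Results.P180.A0NamedClasses

open Vale.Agent.N180.St

universe u

theorem result (p : ℕ) [Fact p.Prime] (n m : ℕ) :
    Donovan.{u} p n (Layered p n m) ∧ Donovan.{u} p n (OverBuilt p m) :=
  ⟨(Vale.Agent.N180.main p n m).1, (Vale.Agent.N180.main p n m).2.1⟩

end Vale.Agent.Results.P180.A0NamedClasses
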